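import Crest.Agent.N49.Rm.Defs

/-! Row 49 (helper54): block algebra of semantic forms (blocks, scaling, positions of clones). -/

set_option autoImplicit false
set_option linter.unusedSectionVars false

noncomputable section

namespace Crest.Agent.N49.Rm.Bq

open Finset TT

variable {L C : Type} [Fintype L] [DecidableEq L] [Fintype C] [DecidableEq C] {T : TT L C}
  {F G : Fm L C} {ℓ j : L} {A A' M : Finset L} {y : C → ℤ} {p p' : C ⊕ L → ℝ}

/-- replace the block of `ℓ` -/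
def sb (T : TT L C) (ℓ : L) (p z : C ⊕ L → ℝ) : C ⊕ L → ℝ :=
  fun v => if ℓ ∈ T.tv v then z v else p v

theorem sb_self (p : C ⊕ L → ℝ) : sb T ℓ p p = p := funext fun _ => ite_self _

theorem sb_of (h : ∀ v, ℓ ∉ T.tv v → p v = p' v) : sb T ℓ p p' = p' :=
  funext fun v => by by_cases k : ℓ ∈ T.tv v <;> simp [sb, k, h v]

theorem sb_in {z : C ⊕ L → ℝ} {v : C ⊕ L} (h : ℓ ∈ T.tv v) : sb T ℓ p z v = z v := if_pos h

theorem sb_out {z : C ⊕ L → ℝ} {v : C ⊕ L} (h : ℓ ∉ T.tv v) : sb T ℓ p z v = p v := if_neg h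

/-- the linear map along a block -/
def lm (h : T.Lin ℓ F) (p : C ⊕ L → ℝ) : (C ⊕ L → ℝ) →ₗ[ℝ] ℝ where
  toFun z := F (sb T ℓ p z)
  map_add' z z' := by
    have := h 1 1 (sb T ℓ p z) (sb T ℓ p z') fun v k => by rw [sb_out k, sb_out k]
    rw [one_mul, one_mul] at this
    rw [← this]; congr 1; funext v
    by_cases k : ℓ ∈ T.tv v <;> simp [sb, cmb, k]
  map_smul' a z := by
    have := h a 0 (sb T ℓ p z) (sb T ℓ p z) fun v _ => rfl
    rw [zero_mul, add_zero] at this
    rw [RingHom.id_apply, smul_eq_mul, ← this]; congr 1; funext v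
    by_cases k : ℓ ∈ T.tv v <;> simp [sb, cmb, k]

theorem lm_apply (h : T.Lin ℓ F) (p z : C ⊕ L → ℝ) : lm h p z = F (sb T ℓ p z) := rfl

theorem lin_of (h : ∀ p, IsLinearMap ℝ fun z => F (sb T ℓ p z)) : T.Lin ℓ F := fun a b p p' e => by
  have k : T.cmb ℓ a b p p' = sb T ℓ p (a • p + b • p') := funext fun v => by
    by_cases k : ℓ ∈ T.tv v <;> simp [sb, cmb, k]
  rw [k, (h p).map_add, (h p).map_smul, (h p).map_smul, sb_self, sb_of e]; rfl

/-- `F` does not see the block of `ℓ` -/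
def Ind (T : TT L C) (ℓ : L) (F : Fm L C) : Prop :=
  ∀ p p', (∀ v, ℓ ∉ T.tv v → p v = p' v) → F p = F p'

theorem ty_ind (h : T.Ty A F) (k : ℓ ∉ A) : Ind T ℓ F :=
  fun p p' e => h p p' fun v s _ => e v fun m => k (s m)

theorem ty_mono (h : T.Ty A F) (k : A ⊆ A') : T.Ty A' F :=
  fun p p' e => h p p' fun v s n => e v (s.trans k) n

theorem lin_add (h : T.Lin ℓ F) (k : T.Lin ℓ G) : T.Lin ℓ fun p => F p + G p :=
  fun a b p p' e => by simp only [h a b p p' e, k a b p p' e]; ring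

theorem lin_sub (h : T.Lin ℓ F) (k : T.Lin ℓ G) : T.Lin ℓ fun p => F p - G p :=
  fun a b p p' e => by simp only [h a b p p' e, k a b p p' e]; ring

theorem lin_mul (h : T.Lin ℓ F) (t : ℝ) : T.Lin ℓ fun p => t * F p :=
  fun a b p p' e => by simp only [h a b p p' e]; ring

theorem lin_div (h : T.Lin ℓ F) (t : ℝ) : T.Lin ℓ fun p => F p / t :=
  fun a b p p' e => by simp only [h a b p p' e]; ring

theorem dat_add (h : T.Dat A M F) (k : T.Dat A M G) : T.Dat A M fun p => F p + G p :=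
  ⟨fun p p' e => by simp only [h.1 p p' e, k.1 p p' e], fun l m => lin_add (h.2 l m) (k.2 l m)⟩

theorem dat_sub (h : T.Dat A M F) (k : T.Dat A M G) : T.Dat A M fun p => F p - G p :=
  ⟨fun p p' e => by simp only [h.1 p p' e, k.1 p p' e], fun l m => lin_sub (h.2 l m) (k.2 l m)⟩

theorem dat_mul (h : T.Dat A M F) (t : ℝ) : T.Dat A M fun p => t * F p :=
  ⟨fun p p' e => by simp only [h.1 p p' e], fun l m => lin_mul (h.2 l m) t⟩

theorem dat_div (h : T.Dat A M F) (t : ℝ) : T.Dat A M fun p => F p / t :=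
  ⟨fun p p' e => by simp only [h.1 p p' e], fun l m => lin_div (h.2 l m) t⟩

theorem ok_lin (h : T.Ok) {c : C} (k : ℓ ∈ T.ty c) : T.Lin ℓ fun p => T.Φ p c :=
  (h.dat c ⟨ℓ, k⟩).2 ℓ k

theorem ok_ind (h : T.Ok) {c : C} (k : ℓ ∉ T.ty c) : Ind T ℓ fun p => T.Φ p c := by
  rcases (T.ty c).eq_empty_or_nonempty with e | n
  · exact fun p p' a => by simp only [h.dead c _ e]; exact a (.inl c) k
  · exact ty_ind (h.dat c n).1 k

/-! ### scaling -/

/-- scale all the blocks of `M` -/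
def sc (T : TT L C) (M : Finset L) (t : ℝ) (p : C ⊕ L → ℝ) : C ⊕ L → ℝ :=
  fun v => t ^ #(T.tv v ∩ M) * p v

theorem sc_apply (S : Finset L) (t : ℝ) (p : C ⊕ L → ℝ)
    (h : ∀ l ∈ M, (l ∈ S → T.Lin l F) ∧ (l ∉ S → Ind T l F)) :
    F (sc T M t p) = t ^ #(S ∩ M) * F p := by
  induction M using Finset.induction_on with
  | empty => simp only [inter_empty, card_empty, pow_zero, one_mul]; congr 1; funext v; simp [sc]
  | insert l M n ih =>
    have ih := ih fun a m => h a (mem_insert_of_mem m)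
    have e : sc T (insert l M) t p = sb T l (sc T M t p) (t • sc T M t p) := funext fun v => by
      by_cases k : l ∈ T.tv v
      · rw [sb_in k, sc, inter_insert_of_mem k, card_insert_of_notMem (by simp [n])]
        simp only [Pi.smul_apply, smul_eq_mul, sc]; ring
      · rw [sb_out k, sc, inter_insert_of_notMem k]; rfl
    by_cases k : l ∈ S
    · have a := (h l (mem_insert_self _ _)).1 k
      rw [e, ← lm_apply a, map_smul, lm_apply, sb_self, ih, inter_insert_of_mem k,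
        card_insert_of_notMem (by simp [n]), smul_eq_mul]; ring
    · rw [inter_insert_of_notMem k, ← ih, e]
      exact (h l (mem_insert_self _ _)).2 k _ _ fun v m => sb_out m

theorem sc_fib (t : ℝ) (h : p ∈ T.Fib M y) : sc T M t p ∈ T.Fib M y := by
  refine ⟨fun c d => ?_, fun l => ?_⟩
  · have : T.tv (.inl c) ∩ M = ∅ := disjoint_iff_inter_eq_empty.1 d
    rw [sc, this, card_empty, pow_zero, one_mul, h.1 c d]
  · rw [sc, h.2 l]
    by_cases k : l ∈ M
    · simp [k]
    · have : T.tv (.inr l) ∩ M = ∅ := by simp [tv, k]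
      simp [this, k]

/-- the bound on a dilated cube -/
theorem sm_scale (o : T.Ok) (h : ∀ l ∈ M, T.Lin l F) {B r : ℝ} (s : T.Sm A M y B F)
    (hp : p ∈ T.Fib M y) (r1 : 1 ≤ r)
    (hr : ∀ c, T.ty c ⊆ A → ¬ Disjoint (T.ty c) M → |T.Φ p c| ≤ r) : |F p| ≤ B * r ^ #M := by
  have r0 : 0 < r := one_pos.trans_le r1
  have a := s _ (sc_fib r⁻¹ hp) fun c u d => by
    rw [sc_apply (F := fun p => T.Φ p c) (T.ty c) r⁻¹ p fun l _ => ⟨ok_lin o, ok_ind o⟩, abs_mul,
      abs_of_nonneg (by positivity)]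
    have n : 1 ≤ #(T.ty c ∩ M) := card_pos.2 (nonempty_iff_ne_empty.2 fun e =>
      d (disjoint_iff_inter_eq_empty.2 e))
    have := pow_le_pow_of_le_one (inv_pos.2 r0).le (inv_le_one_of_one_le₀ r1) n
    rw [pow_one] at this
    calc _ ≤ r⁻¹ * r := mul_le_mul this (hr c u d) (abs_nonneg _) (inv_pos.2 r0).le
      _ = 1 := inv_mul_cancel₀ r0.ne'
  rw [sc_apply M r⁻¹ p fun l m => ⟨fun _ => h l m, fun n => absurd m n⟩, inter_self, abs_mul,
    abs_of_nonneg (by positivity), inv_pow, inv_mul_le_iff₀ (by positivity), mul_comm] at a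
  exact a

theorem intF_mono (h : T.IntF A M y F) (k : A ⊆ A') : T.IntF A' M y F :=
  ⟨⟨ty_mono h.1.1 k, h.1.2⟩, h.2⟩

theorem sm_mono {B : ℝ} (h : T.Sm A M y B F) (k : A ⊆ A') : T.Sm A' M y B F :=
  fun p f c => h p f fun d s => c d (s.trans k)

theorem uq_mono {R R' : ℝ} (h : T.UQ A' M y R') (k : A ⊆ A') (r : R ≤ R') : T.UQ A M y R :=
  fun I a b => h I (intF_mono a k) fun p f c => (sm_mono b k p f c).trans r

theorem fib_congr {y' : C → ℤ} (h : ∀ c, Disjoint (T.ty c) M → y c = y' c) :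
    T.Fib M y = T.Fib M y' :=
  Set.ext fun _ => and_congr_left' (forall_congr' fun c => forall_congr' fun d => by rw [h c d])

/-! ### positions of clones -/

section pos
variable {ρ : Type} [Fintype ρ] [DecidableEq ρ] {pt : ρ → Bool} {a : ρ → ℕ} {α0 : ℤ} {α : ρ → ℤ}
  {P P' : T.CC j ρ ⊕ (L ⊕ ρ) → ℝ} {w : T.CC j ρ → ℤ}

theorem px_out (x : ρ) {v : C ⊕ L} (h : j ∉ T.tv v) : T.px j pt x P v = T.p0 j P v := by
  rcases v with c | l
  · exact dif_neg h
  · exact if_neg fun e => h (by simp [tv, e])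

theorem pos_eq : T.pos j pt α0 α P =
    sb T j (T.p0 j P) ((α0 : ℝ) • T.p0 j P + ∑ x, (α x : ℝ) • T.px j pt x P) :=
  funext fun v => by simp [pos, sb, Finset.sum_apply]

theorem pos_lin (h : T.Lin j F) :
    F (T.pos j pt α0 α P) = α0 * F (T.p0 j P) + ∑ x, α x * F (T.px j pt x P) := by
  rw [pos_eq, ← lm_apply h, map_add, map_smul, map_sum, lm_apply, sb_self, smul_eq_mul]
  refine congrArg _ (sum_congr rfl fun x _ => ?_)
  rw [map_smul, lm_apply, sb_of fun v k => (px_out x k).symm, smul_eq_mul]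

theorem pos_out {v : C ⊕ L} (h : j ∉ T.tv v) : T.pos j pt α0 α P v = T.p0 j P v := if_neg h

theorem phi_pos_in (o : T.Ok) {c : C} (h : j ∈ T.ty c) :
    T.Φ (T.pos j pt α0 α P) c = α0 * (T.cl j pt a).Φ P (.inl c) +
      ∑ x, α x / 2 ^ a x * (T.cl j pt a).Φ P (.inr (⟨c, h⟩, x)) := by
  rw [pos_lin (F := fun p => T.Φ p c) (ok_lin o h)]
  refine congrArg₂ _ rfl (sum_congr rfl fun x _ => ?_)
  simp only [cl, Sum.elim_inr]; field_simp

theorem phi_pos_out (o : T.Ok) {c : C} (h : j ∉ T.ty c) :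
    T.Φ (T.pos j pt α0 α P) c = (T.cl j pt a).Φ P (.inl c) :=
  ok_ind o h _ _ fun _ k => pos_out k

theorem mem_tv0 (l : L) (v : C ⊕ L) :
    (Sum.inl l : L ⊕ ρ) ∈ (T.cl j pt a).tv (Sum.map .inl .inl v) ↔ l ∈ T.tv v := by
  rcases v with c | m <;> simp [tv, cl]

theorem p0_eq (v : C ⊕ L) : T.p0 j P v = P (Sum.map .inl .inl v) := by rcases v with c | m <;> rfl

/-- the coordinate of the clone `x` -/
def vx (T : TT L C) (j : L) (x : ρ) (v : C ⊕ L) (h : j ∈ T.tv v) : T.CC j ρ ⊕ (L ⊕ ρ) :=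
  match v, h with
  | .inl c, h => .inl (.inr (⟨c, h⟩, x))
  | .inr _, _ => .inr (.inr x)

theorem tv_vx (x : ρ) {v : C ⊕ L} (h : j ∈ T.tv v) :
    (T.cl j pt a).tv (vx T j x v h) = insert (.inr x) (((T.tv v).erase j).image .inl) := by
  rcases v with c | m
  · rfl
  · have : j = m := by simpa [tv] using h
    simp [tv, vx, this]

theorem px_in (x : ρ) {v : C ⊕ L} (h : j ∈ T.tv v) :
    T.px j pt x P v = (if v.isLeft ∨ pt x then 1 else 0) * P (vx T j x v h) := by
  rcases v with c | m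
  · simp only [px, Sum.isLeft_inl, true_or, if_true, one_mul]; exact dif_pos h
  · have : m = j := by have : j = m := by simpa [tv] using h
                       exact this.symm
    by_cases k : pt x <;> simp [px, vx, this, k]

theorem pos_ty (h : T.Ty A F) :
    (T.cl j pt a).Ty (upA A ρ) fun P => F (T.pos j pt α0 α P) := fun P P' e => by
  refine h _ _ fun v s n => ?_
  have e0 : T.p0 j P v = T.p0 j P' v := by
    rw [p0_eq, p0_eq]
    obtain ⟨l, m⟩ := n
    refine e _ (fun u k => ?_) ⟨_, (mem_tv0 l v).2 m⟩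
    rcases v with c | m'
    · obtain ⟨l, b, rfl⟩ := mem_image.1 k
      exact mem_union_left _ (mem_image_of_mem _ (s b))
    · have : u = .inl m' := by simpa [tv] using k
      exact this ▸ mem_union_left _ (mem_image_of_mem _ (s (by simp [tv])))
  by_cases k : j ∈ T.tv v
  · simp only [pos, if_pos k, e0]
    refine congrArg _ (sum_congr rfl fun x _ => ?_)
    rw [px_in x k, px_in x k, e _ _ (by rw [tv_vx]; exact insert_nonempty _ _)]
    rw [tv_vx]
    exact insert_subset (mem_union_right _ (mem_image_of_mem _ (mem_univ x)))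
      ((image_subset_image ((erase_subset _ _).trans s)).trans subset_union_left)
  · rw [pos_out k, pos_out k, e0]

theorem pos_cmb (n : ℓ ≠ j) (s t : ℝ) (e : ∀ v, .inl ℓ ∉ (T.cl j pt a).tv v → P v = P' v) :
    T.pos j pt α0 α ((T.cl j pt a).cmb (.inl ℓ) s t P P') =
      T.cmb ℓ s t (T.pos j pt α0 α P) (T.pos j pt α0 α P') ∧
    ∀ v, ℓ ∉ T.tv v → T.pos j pt α0 α P v = T.pos j pt α0 α P' v := by
  have m : ∀ x v (k : j ∈ T.tv v), .inl ℓ ∈ (T.cl j pt a).tv (vx T j x v k) ↔ ℓ ∈ T.tv v :=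
    fun x v k => by rw [tv_vx]; simp [n]
  refine ⟨funext fun v => ?_, fun v b => ?_⟩
  · by_cases k : j ∈ T.tv v <;> by_cases b : ℓ ∈ T.tv v
    · simp only [pos, cmb, if_pos k, if_pos b, p0_eq, px_in _ k, (mem_tv0 ℓ v).2 b, (m _ v k).2 b,
        if_true, mul_add, mul_sum, sum_add_distrib]
      simp only [mul_left_comm s, mul_left_comm t]; ring
    · simp only [pos, cmb, if_pos k, if_neg b, p0_eq, px_in _ k, mem_tv0, m]
    · simp only [pos, cmb, if_neg k, if_pos b, p0_eq, mem_tv0]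
    · simp only [pos, cmb, if_neg k, if_neg b, p0_eq, mem_tv0]
  · have e0 := e _ fun u => b ((mem_tv0 ℓ v).1 u)
    by_cases k : j ∈ T.tv v
    · simp only [pos, if_pos k, p0_eq, px_in _ k, e0, fun x => e _ fun u => b ((m x v k).1 u)]
    · simp only [pos, if_neg k, p0_eq, e0]

theorem pos_dat (h : T.Dat A M F) (n : j ∉ M) :
    (T.cl j pt a).Dat (upA A ρ) (M.image .inl) fun P => F (T.pos j pt α0 α P) := by
  refine ⟨pos_ty h.1, fun l m s t P P' e => ?_⟩
  obtain ⟨l, k, rfl⟩ := mem_image.1 m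
  have := pos_cmb (α0 := α0) (α := α) (ne_of_mem_of_not_mem k n) s t e
  simp only [this.1]
  exact h.2 l k s t _ _ this.2

theorem pos_int (h : IntP P) : IntP (T.pos j pt α0 α P) := fun v => by
  choose n hn using h
  by_cases k : j ∈ T.tv v
  · refine ⟨α0 * n (Sum.map .inl .inl v) +
      ∑ x, α x * ((if v.isLeft ∨ pt x then 1 else 0) * n (vx T j x v k)), ?_⟩
    simp only [pos, if_pos k, p0_eq, px_in _ k, hn]; push_cast; rfl
  · exact ⟨_, by rw [pos_out k, p0_eq, hn]⟩

theorem dj0 (c : C) : Disjoint ((T.cl j pt a).ty (.inl c)) (M.image .inl) ↔ Disjoint (T.ty c) M :=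
  disjoint_image Sum.inl_injective

theorem djx (n : j ∉ M) (c : T.Bl j) (x : ρ) :
    Disjoint ((T.cl j pt a).ty (.inr (c, x))) (M.image .inl) ↔ Disjoint (T.ty c.1) M := by
  simp only [cl, Sum.elim_inr, disjoint_insert_left, disjoint_image Sum.inl_injective]
  simp only [mem_image, reduceCtorEq, and_false, exists_false, not_false_eq_true, true_and,
    disjoint_left, mem_erase]
  exact ⟨fun h l k m => h ⟨ne_of_mem_of_not_mem m n, k⟩ m, fun h l k => h k.2⟩

theorem pos_e (n : j ∉ M) (h : P ∈ (T.cl j pt a).Fib (M.image .inl) w) (l : L) :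
    T.pos j pt α0 α P (.inr l) =
      if l ∈ M then 0 else if l = j then ((α0 + ∑ x with pt x, α x : ℤ) : ℝ) else 1 := by
  have e0 : T.p0 j P (.inr l) = if l ∈ M then 0 else 1 := by
    rw [p0_eq]; simpa using h.2 (.inl l)
  by_cases k : l = j
  · subst k
    have b : l ∈ T.tv (.inr l) := by simp [tv]
    have ex : ∀ x, P (vx T l x (.inr l) b) = 1 := fun x => by simpa [vx] using h.2 (.inr x)
    simp only [pos, if_pos b, e0, if_neg n, px_in _ b, ex, if_true, sum_filter]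
    push_cast; simp
  · rw [pos_out (by simpa [tv] using Ne.symm k), e0, if_neg k]

theorem pos_c (n : j ∉ M) (h : P ∈ (T.cl j pt a).Fib (M.image .inl) w) {c : C}
    (d : Disjoint (T.ty c) M) : T.pos j pt α0 α P (.inl c) = T.posZ j α0 α w c := by
  have e0 : T.p0 j P (.inl c) = w (.inl c) := h.1 _ ((dj0 c).2 d)
  by_cases k : j ∈ T.ty c
  · have b : j ∈ T.tv (.inl c) := k
    have ex : ∀ x, P (vx T j x (.inl c) b) = w (.inr (⟨c, k⟩, x)) :=
      fun x => h.1 _ ((djx n _ x).2 d)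
    simp only [pos, if_pos b, e0, px_in _ b, ex, posZ, dif_pos k]; push_cast; simp
  · rw [pos_out (v := .inl c) k, e0, posZ, dif_neg k]

/-- a position of mass one is a point -/
theorem pos_fib (n : j ∉ M) (m : α0 + ∑ x with pt x, α x = 1)
    (h : P ∈ (T.cl j pt a).Fib (M.image .inl) w) :
    T.pos j pt α0 α P ∈ T.Fib M (T.posZ j α0 α w) :=
  ⟨fun _ d => pos_c n h d, fun l => by rw [pos_e n h, m]; simp⟩

/-- a position of mass zero is a direction -/
theorem pos_fib0 (n : j ∉ M) (m : α0 + ∑ x with pt x, α x = 0)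
    (h : P ∈ (T.cl j pt a).Fib (M.image .inl) w) :
    T.pos j pt α0 α P ∈ T.Fib (insert j M) (w ∘ .inl) := by
  refine ⟨fun c d => ?_, fun l => ?_⟩
  · rw [disjoint_insert_right] at d
    rw [pos_c n h d.2, posZ, dif_neg d.1]; rfl
  · rw [pos_e n h, m]; by_cases k : l = j <;> simp [k]

end pos

end Crest.Agent.N49.Rm.Bq

end
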